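import Vale.Agent.P141.H258.Wt

/-!
# P141, line (A), F13: the weight `β + R²`, energies of the moves

For symmetric `R`, `D`, and the children `R ± D`: the parts of the weight are
`M = R D + D R` and `D D`, and the energies of the moves of the stack `(R c ; √β c)` at the
parent and at the two children are at most `2 |D c|² + 2 β⁻¹ |D R c|²`.
-/

namespace Vale.Agent.P141.H543

open Finset Matrix
open Vale.Agent.P141.H258 (wt wt_symm wt_psd)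

noncomputable section

variable {κ : Type*} [Fintype κ] [DecidableEq κ]

theorem wt_posDef {β : ℝ} (hβ : 0 < β) {R : Matrix κ κ ℝ} (hR : Rᵀ = R) :
    (wt β R).PosDef := by
  have h1 : (β • (1 : Matrix κ κ ℝ)).PosDef := PosDef.one.smul hβ
  have h := posSemidef_conjTranspose_mul_self R
  rw [conjTranspose_eq_transpose_of_trivial, hR] at h
  exact h1.add_posSemidef h

/-- the form of the weight -/
theorem wt_form (β : ℝ) {R : Matrix κ κ ℝ} (hR : Rᵀ = R) (x : κ → ℝ) :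
    x ⬝ᵥ (wt β R *ᵥ x) = β * (x ⬝ᵥ x) + (R *ᵥ x) ⬝ᵥ (R *ᵥ x) := by
  have h : x ⬝ᵥ ((R * R) *ᵥ x) = (R *ᵥ x) ⬝ᵥ (R *ᵥ x) := by
    rw [← mulVec_mulVec, dotProduct_mulVec, ← mulVec_transpose, hR]
  rw [wt, add_mulVec, dotProduct_add, h, smul_mulVec, one_mulVec, dotProduct_smul, smul_eq_mul]

/-- the inverse form at `Θ y` -/
theorem inv_form_mul {Θ : Matrix κ κ ℝ} (h : Θ.PosDef) (y : κ → ℝ) :
    (Θ *ᵥ y) ⬝ᵥ (Θ⁻¹ *ᵥ (Θ *ᵥ y)) = y ⬝ᵥ (Θ *ᵥ y) := by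
  have hu : IsUnit Θ.det := (Matrix.isUnit_iff_isUnit_det Θ).1 h.isUnit
  rw [mulVec_mulVec, nonsing_inv_mul Θ hu, one_mulVec, dotProduct_comm]

/-- the inverse form is at most `s` if `Θ` dominates -/
theorem inv_form_nonneg {Θ : Matrix κ κ ℝ} (h : Θ.PosDef) (x : κ → ℝ) :
    0 ≤ x ⬝ᵥ (Θ⁻¹ *ᵥ x) := by
  have h2 := h.inv.posSemidef.dotProduct_mulVec_nonneg x
  simpa using h2

theorem inv_form_add {Θ : Matrix κ κ ℝ} (h : Θ.PosDef) (x y : κ → ℝ) :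
    (x + y) ⬝ᵥ (Θ⁻¹ *ᵥ (x + y)) ≤ 2 * (x ⬝ᵥ (Θ⁻¹ *ᵥ x)) + 2 * (y ⬝ᵥ (Θ⁻¹ *ᵥ y)) := by
  have h2 := inv_form_nonneg h (x - y)
  simp only [mulVec_add, mulVec_sub, dotProduct_add, dotProduct_sub, add_dotProduct,
    sub_dotProduct] at h2 ⊢
  linarith

/-- `|Θ^(-1/2) x|² ≤ β⁻¹ |x|²` -/
theorem inv_form_le {β : ℝ} (hβ : 0 < β) {R : Matrix κ κ ℝ} (hR : Rᵀ = R) (x : κ → ℝ) :
    x ⬝ᵥ ((wt β R)⁻¹ *ᵥ x) ≤ β⁻¹ * (x ⬝ᵥ x) := by
  have h := wt_posDef hβ hR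
  have hu : IsUnit (wt β R).det := (Matrix.isUnit_iff_isUnit_det _).1 h.isUnit
  set y := (wt β R)⁻¹ *ᵥ x with hy
  have hx : wt β R *ᵥ y = x := by rw [hy, mulVec_mulVec, mul_nonsing_inv _ hu, one_mulVec]
  have e1 : x ⬝ᵥ y = y ⬝ᵥ (wt β R *ᵥ y) := by rw [hx, dotProduct_comm]
  have e2 := wt_form β hR y
  have p1 : 0 ≤ (R *ᵥ y) ⬝ᵥ (R *ᵥ y) := by
    have := dotProduct_self_star_nonneg (R *ᵥ y); simpa using this
  have p2 : 0 ≤ (x - β • y) ⬝ᵥ (x - β • y) := by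
    have := dotProduct_self_star_nonneg (x - β • y); simpa using this
  simp only [dotProduct_sub, sub_dotProduct, dotProduct_smul, smul_dotProduct, smul_eq_mul] at p2
  rw [dotProduct_comm y x] at p2
  have h3 : β * (y ⬝ᵥ y) ≤ x ⬝ᵥ y := by rw [e1, e2]; linarith
  have h4 : β * (x ⬝ᵥ y) ≤ x ⬝ᵥ x := by
    have h5 : β * (β * (y ⬝ᵥ y)) ≤ β * (x ⬝ᵥ y) := mul_le_mul_of_nonneg_left h3 hβ.le
    nlinarith
  rw [inv_mul_eq_div, le_div_iff₀ hβ]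
  linarith

/-- `|Θ^(-1/2) R x|² ≤ |x|²` -/
theorem inv_form_R {β : ℝ} (hβ : 0 < β) {R : Matrix κ κ ℝ} (hR : Rᵀ = R) (x : κ → ℝ) :
    (R *ᵥ x) ⬝ᵥ ((wt β R)⁻¹ *ᵥ (R *ᵥ x)) ≤ x ⬝ᵥ x := by
  have h := wt_posDef hβ hR
  have hu : IsUnit (wt β R).det := (Matrix.isUnit_iff_isUnit_det _).1 h.isUnit
  set y := (wt β R)⁻¹ *ᵥ (R *ᵥ x) with hy
  have hx : wt β R *ᵥ y = R *ᵥ x := by rw [hy, mulVec_mulVec, mul_nonsing_inv _ hu, one_mulVec]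
  -- `<R x, y> = <y, Θ y> = β |y|² + |R y|²` and `<R x, y> = <x, R y> ≤ (|x|² + |R y|²) / 2`
  have e1 : (R *ᵥ x) ⬝ᵥ y = β * (y ⬝ᵥ y) + (R *ᵥ y) ⬝ᵥ (R *ᵥ y) := by
    rw [← wt_form β hR y, hx, dotProduct_comm]
  have e2 : (R *ᵥ x) ⬝ᵥ y = x ⬝ᵥ (R *ᵥ y) := by
    rw [dotProduct_comm (R *ᵥ x) y, dotProduct_mulVec y R x, ← mulVec_transpose, hR,
      dotProduct_comm]
  have p1 : 0 ≤ β * (y ⬝ᵥ y) := by
    have := dotProduct_self_star_nonneg y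
    refine mul_nonneg hβ.le ?_
    simpa using this
  have p2 : 0 ≤ (x - R *ᵥ y) ⬝ᵥ (x - R *ᵥ y) := by
    have := dotProduct_self_star_nonneg (x - R *ᵥ y); simpa using this
  simp only [dotProduct_sub, sub_dotProduct] at p2
  rw [dotProduct_comm (R *ᵥ y) x] at p2
  linarith

/-- **one move**: `|Θ^(-1/2) (R D + D R') c|² ≤ 2 |D c|² + 2 β⁻¹ |D R' c|²` -/
theorem inv_form_move {β : ℝ} (hβ : 0 < β) {R : Matrix κ κ ℝ} (hR : Rᵀ = R)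
    (R' D : Matrix κ κ ℝ) (c : κ → ℝ) :
    ((R * D + D * R') *ᵥ c) ⬝ᵥ ((wt β R)⁻¹ *ᵥ ((R * D + D * R') *ᵥ c)) ≤
      2 * ((D *ᵥ c) ⬝ᵥ (D *ᵥ c)) + 2 * β⁻¹ * ((D *ᵥ (R' *ᵥ c)) ⬝ᵥ (D *ᵥ (R' *ᵥ c))) := by
  have e : (R * D + D * R') *ᵥ c = R *ᵥ (D *ᵥ c) + D *ᵥ (R' *ᵥ c) := by
    rw [add_mulVec, mulVec_mulVec, mulVec_mulVec]
  rw [e]
  have h1 := inv_form_add (wt_posDef hβ hR) (R *ᵥ (D *ᵥ c)) (D *ᵥ (R' *ᵥ c))
  have h2 := inv_form_R hβ hR (D *ᵥ c)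
  have h3 := inv_form_le hβ hR (D *ᵥ (R' *ᵥ c))
  linarith

/-! ### Children -/

/-- left child -/
theorem wt_left (β : ℝ) (R D : Matrix κ κ ℝ) :
    wt β (R + D) = wt β R + D * D + (R * D + D * R) := by
  unfold wt
  noncomm_ring

/-- right child -/
theorem wt_right (β : ℝ) (R D : Matrix κ κ ℝ) :
    wt β (R - D) = wt β R + D * D - (R * D + D * R) := by
  unfold wt
  noncomm_ring

/-- the move seen from the left child -/
theorem mv_left (R D : Matrix κ κ ℝ) :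
    (R * D + D * R) + D * D = (R + D) * D + D * R := by noncomm_ring

/-- the move seen from the right child -/
theorem mv_right (R D : Matrix κ κ ℝ) :
    (R * D + D * R) - D * D = (R - D) * D + D * R := by noncomm_ring

omit [DecidableEq κ] in
theorem sq_psd {D : Matrix κ κ ℝ} (hD : Dᵀ = D) : (D * D).PosSemidef := by
  have h := posSemidef_conjTranspose_mul_self D
  rwa [conjTranspose_eq_transpose_of_trivial, hD] at h

end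

end Vale.Agent.P141.H543
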