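import Vale.Agent.P141.H505.SkelStack
import Vale.Agent.P141.H543.WtTF

/-!
# P141, line (A), F13: the weight of the flow part and its numbers

`R x k m` symmetric, on the halves of the cell `m` of scale `k + 1` : `R ± D`.
* `wgt_TF` : the weight `β + R²` with the parts `M = R D + D R`, `D D`, no negative drift;
* `slot_TF` : the factor `(R ; √β)`, the slot vector `R e`, its move `D e`;
* `enW_TF`, `enM_TF` : energy and variation by `∑ |R c|²`, `∑ |D c|²`, `∑ |D R c|²`.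
-/

namespace Vale.Agent.P141.H543

open Finset Matrix Vale.Agent.P141.PL
open Vale.Agent.P141.H258 (wt wt_symm wt_psd)
open Vale.Agent.P141.H505.Skel

noncomputable section

variable {κ : Type} [Fintype κ] [DecidableEq κ]

/-- a moving family of matrices, exact on the halves -/
structure Mv (N : ℕ) (R D : ℤ → ℕ → ℤ → Matrix κ κ ℝ) : Prop where
  symR : ∀ x k m, (R x k m)ᵀ = R x k m
  symD : ∀ x k m, (D x k m)ᵀ = D x k m
  left : ∀ x k m, k < N → R x k (2 * m) = R x (k + 1) m + D x (k + 1) m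
  right : ∀ x k m, k < N → R x k (2 * m + 1) = R x (k + 1) m - D x (k + 1) m

/-- the weight -/
def ThF (β : ℝ) (R : ℤ → ℕ → ℤ → Matrix κ κ ℝ) (x : ℤ) (k : ℕ) (m : ℤ) : Matrix κ κ ℝ :=
  wt β (R x k m)

/-- the symmetric move of the weight -/
def MF (R D : ℤ → ℕ → ℤ → Matrix κ κ ℝ) (x : ℤ) (k : ℕ) (m : ℤ) : Matrix κ κ ℝ :=
  R x k m * D x k m + D x k m * R x k m

/-- the drift of the weight -/
def NF (D : ℤ → ℕ → ℤ → Matrix κ κ ℝ) (x : ℤ) (k : ℕ) (m : ℤ) : Matrix κ κ ℝ :=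
  D x k m * D x k m

theorem wgt_TF {N : ℕ} {β : ℝ} (hβ : 0 < β) {R D : ℤ → ℕ → ℤ → Matrix κ κ ℝ} (h : Mv N R D) :
    Wgt N β (ThF β R) (NF D) (MF R D) (fun _ _ _ => 0) where
  pos := hβ
  ge x k m := by
    have e : ThF β R x k m - β • (1 : Matrix κ κ ℝ) = R x k m * R x k m := by
      unfold ThF wt
      abel
    rw [e]
    exact sq_psd (h.symR x k m)
  symM x k m := by
    unfold MF
    rw [transpose_add, transpose_mul, transpose_mul, h.symR, h.symD, add_comm]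
  symN x k m := by
    unfold NF
    rw [transpose_mul, h.symD]
  left x k m hk := by
    unfold ThF NF MF
    rw [h.left x k m hk, wt_left]
  right x k m hk := by
    unfold ThF NF MF
    rw [h.right x k m hk, wt_right]
  nm x k m := PosSemidef.zero
  np x k m := by
    rw [add_zero]
    exact sq_psd (h.symD x k m)

/-- the factor of the weight -/
def LF (β : ℝ) (R : ℤ → ℕ → ℤ → Matrix κ κ ℝ) (x : ℤ) (k : ℕ) (m : ℤ) : Matrix (κ ⊕ κ) κ ℝ :=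
  fromRows (R x k m) (√β • (1 : Matrix κ κ ℝ))

/-- the unit vector of the slot -/
def vF (e : ℤ → κ → ℝ) (x : ℤ) (_ : ℕ) (_ : ℤ) : κ ⊕ κ → ℝ := Sum.elim (e x) (fun _ => 0)

theorem slot_TF {N : ℕ} {β : ℝ} (hβ : 0 < β) {R D : ℤ → ℕ → ℤ → Matrix κ κ ℝ} (h : Mv N R D)
    (e : ℤ → κ → ℝ) (he : ∀ x, e x ⬝ᵥ e x ≤ 1) :
    Slot N (ThF β R) (LF β R) (vF e) (fun x k m => R x k m *ᵥ e x) (fun _ _ _ => 0)
      (fun x k m => D x k m *ᵥ e x) where
  LtL x k m := by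
    unfold LF ThF wt
    have e1 : (√β • (1 : Matrix κ κ ℝ))ᵀ * (√β • (1 : Matrix κ κ ℝ)) = β • (1 : Matrix κ κ ℝ) := by
      rw [transpose_smul, transpose_one, Matrix.smul_mul, Matrix.mul_smul, Matrix.one_mul,
        smul_smul, Real.mul_self_sqrt hβ.le]
    rw [transpose_fromRows, fromCols_mul_fromRows, h.symR, e1, add_comm]
  Ltv x k m := by
    unfold LF vF
    have e0 : (fun _ : κ => (0 : ℝ)) = 0 := rfl
    rw [transpose_fromRows, fromCols_mulVec_sumElim, h.symR, e0, mulVec_zero, add_zero]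
  v1 x k m := by
    unfold vF
    have e1 : Sum.elim (e x) (fun _ : κ => (0 : ℝ)) ⬝ᵥ Sum.elim (e x) (fun _ : κ => (0 : ℝ)) =
        e x ⬝ᵥ e x := by
      rw [dotProduct, Fintype.sum_sum_type]
      simp [dotProduct]
    rw [e1]
    exact he x
  left x k m hk := by
    rw [h.left x k m hk, add_mulVec, add_zero]
  right x k m hk := by
    rw [h.right x k m hk, sub_mulVec, add_zero]

/-- energy of the stack -/
theorem enW_TF {N : ℕ} (T S : ℤ) (c : ℤ → ℤ → κ → ℝ) {β : ℝ} {R D : ℤ → ℕ → ℤ → Matrix κ κ ℝ}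
    (h : Mv N R D) (k : ℕ) :
    enW N T S c (ThF β R) k = β * ∑ x ∈ iv N T, ∑ z ∈ iv N S, c x z ⬝ᵥ c x z +
      ∑ x ∈ iv N T, ∑ z ∈ iv N S, (R x k (ix k z) *ᵥ c x z) ⬝ᵥ (R x k (ix k z) *ᵥ c x z) := by
  unfold enW ThF
  simp only [mul_sum, ← sum_add_distrib]
  exact sum_congr rfl fun x _ => sum_congr rfl fun z _ => wt_form β (h.symR ..) _

/-- the parent term -/
theorem parent_TF {β : ℝ} (hβ : 0 < β) {N : ℕ} {R D : ℤ → ℕ → ℤ → Matrix κ κ ℝ} (h : Mv N R D)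
    (x : ℤ) (k : ℕ) (m : ℤ) (c : κ → ℝ) :
    (MF R D x k m *ᵥ c) ⬝ᵥ ((ThF β R x k m)⁻¹ *ᵥ (MF R D x k m *ᵥ c)) ≤
      2 * ((D x k m *ᵥ c) ⬝ᵥ (D x k m *ᵥ c)) +
        2 * β⁻¹ * ((D x k m *ᵥ (R x k m *ᵥ c)) ⬝ᵥ (D x k m *ᵥ (R x k m *ᵥ c))) :=
  inv_form_move hβ (h.symR x k m) (R x k m) (D x k m) c

/-- the left child term -/
theorem left_TF {β : ℝ} (hβ : 0 < β) {N : ℕ} {R D : ℤ → ℕ → ℤ → Matrix κ κ ℝ} (h : Mv N R D)
    (x : ℤ) {k : ℕ} (hk : k < N) (m : ℤ) (c : κ → ℝ) :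
    ((MF R D x (k + 1) m + NF D x (k + 1) m) *ᵥ c) ⬝ᵥ ((ThF β R x k (2 * m))⁻¹ *ᵥ
      ((MF R D x (k + 1) m + NF D x (k + 1) m) *ᵥ c)) ≤
      2 * ((D x (k + 1) m *ᵥ c) ⬝ᵥ (D x (k + 1) m *ᵥ c)) +
        2 * β⁻¹ * ((D x (k + 1) m *ᵥ (R x (k + 1) m *ᵥ c)) ⬝ᵥ
          (D x (k + 1) m *ᵥ (R x (k + 1) m *ᵥ c))) := by
  have e : MF R D x (k + 1) m + NF D x (k + 1) m =
      R x k (2 * m) * D x (k + 1) m + D x (k + 1) m * R x (k + 1) m := by
    unfold MF NF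
    rw [mv_left, h.left x k m hk]
  rw [e]
  exact inv_form_move hβ (h.symR x k (2 * m)) (R x (k + 1) m) (D x (k + 1) m) c

/-- the right child term -/
theorem right_TF {β : ℝ} (hβ : 0 < β) {N : ℕ} {R D : ℤ → ℕ → ℤ → Matrix κ κ ℝ} (h : Mv N R D)
    (x : ℤ) {k : ℕ} (hk : k < N) (m : ℤ) (c : κ → ℝ) :
    ((MF R D x (k + 1) m - NF D x (k + 1) m) *ᵥ c) ⬝ᵥ ((ThF β R x k (2 * m + 1))⁻¹ *ᵥ
      ((MF R D x (k + 1) m - NF D x (k + 1) m) *ᵥ c)) ≤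
      2 * ((D x (k + 1) m *ᵥ c) ⬝ᵥ (D x (k + 1) m *ᵥ c)) +
        2 * β⁻¹ * ((D x (k + 1) m *ᵥ (R x (k + 1) m *ᵥ c)) ⬝ᵥ
          (D x (k + 1) m *ᵥ (R x (k + 1) m *ᵥ c))) := by
  have e : MF R D x (k + 1) m - NF D x (k + 1) m =
      R x k (2 * m + 1) * D x (k + 1) m + D x (k + 1) m * R x (k + 1) m := by
    unfold MF NF
    rw [mv_right, h.right x k m hk]
  rw [e]
  exact inv_form_move hβ (h.symR x k (2 * m + 1)) (R x (k + 1) m) (D x (k + 1) m) c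

end

end Vale.Agent.P141.H543
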