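import Vale.Agent.P141.H43.MidR

/-!
# P141, line (A): dyadic Carleson embedding for vectors

`carleson` : weights `al j i` on the cells `i` of scale `j` with the packing
`∑ (cells of m) al ≤ B 2 ^ k` on every cell `m` of scale `k ≤ K` :
`∑ al j i * |mean of f over (j, i)|² ≤ 4 B ∑ |f|²`.
-/

namespace Vale.Agent.P141.H543

open Finset Matrix Vale.Agent.P141.PL Vale.Agent.P141.PL.H588
open Vale.Agent.P141.H43 (avv avv_half sum_iv_half nsq nsq_nonneg)

noncomputable section

variable {ι : Type*} [Fintype ι]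

theorem nsq_smul (r : ℝ) (v : ι → ℝ) : nsq (r • v) = r ^ 2 * nsq v := by
  unfold nsq
  rw [smul_dotProduct, dotProduct_smul, smul_eq_mul, smul_eq_mul]
  ring

theorem nsq_titu {a b : ℝ} (ha : 0 < a) (hb : 0 < b) (v w : ι → ℝ) :
    nsq (v + w) / (a + b) ≤ nsq v / a + nsq w / b := by
  have h := nsq_nonneg (b • v - a • w)
  have e1 : nsq (b • v - a • w) = b ^ 2 * nsq v - 2 * (a * b) * (v ⬝ᵥ w) + a ^ 2 * nsq w := by
    unfold nsq
    simp only [sub_dotProduct, dotProduct_sub, smul_dotProduct, dotProduct_smul, smul_eq_mul]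
    rw [dotProduct_comm w v]
    ring
  have e2 : nsq (v + w) = nsq v + 2 * (v ⬝ᵥ w) + nsq w := by
    unfold nsq
    simp only [add_dotProduct, dotProduct_add]
    rw [dotProduct_comm w v]
    ring
  rw [e1] at h
  rw [e2, div_add_div _ _ ha.ne' hb.ne', div_le_div_iff₀ (by positivity) (by positivity)]
  nlinarith

/-- one step of the Bellman function -/
theorem bell_step {B p a0 a1 α : ℝ} (hB : 0 < B) (hp : 0 < p) (h0 : 0 ≤ a0) (h1 : 0 ≤ a1)
    (hα : 0 ≤ α) (ht : (a0 + a1 + α) ≤ B * (2 * p)) (v w : ι → ℝ) :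
    α * nsq ((1 / 2 : ℝ) • (v + w)) + 4 * B * ((2 * p) * (nsq ((1 / 2 : ℝ) • (v + w)) /
      (1 + (a0 + a1 + α) / (B * (2 * p))))) ≤
      4 * B * (p * (nsq v / (1 + a0 / (B * p))) + p * (nsq w / (1 + a1 / (B * p)))) := by
  set N := nsq ((1 / 2 : ℝ) • (v + w)) with hN
  have hN0 : 0 ≤ N := nsq_nonneg _
  have hN4 : nsq (v + w) = 4 * N := by
    rw [hN, nsq_smul]
    ring
  have y0 : 0 < 1 + a0 / (B * p) := by positivity
  have y1 : 0 < 1 + a1 / (B * p) := by positivity
  have ti := nsq_titu y0 y1 v w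
  set y := 1 + (a0 + a1 + α) / (B * (2 * p)) with hy
  set θ := α / (B * (2 * p)) with hθ
  have hθ0 : 0 ≤ θ := by positivity
  have hy2 : y ≤ 2 := by
    have : (a0 + a1 + α) / (B * (2 * p)) ≤ 1 := by
      rw [div_le_one (by positivity)]
      exact ht
    linarith
  have hyz : (1 + a0 / (B * p)) + (1 + a1 / (B * p)) = 2 * (y - θ) := by
    rw [hy, hθ]
    field_simp
    ring
  have hz : 0 < y - θ := by linarith
  have hy0 : 0 < y := by linarith
  rw [hyz, hN4] at ti
  have ti2 : 2 * (N / (y - θ)) ≤ nsq v / (1 + a0 / (B * p)) + nsq w / (1 + a1 / (B * p)) := by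
    refine le_trans (le_of_eq ?_) ti
    field_simp
    ring
  -- drop from `y - θ` to `y`
  have dr : N / y + θ * N / 4 ≤ N / (y - θ) := by
    have e : N / (y - θ) - N / y = θ * N / (y * (y - θ)) := by
      field_simp
      ring
    have h4 : y * (y - θ) ≤ 4 := by nlinarith
    have : θ * N / 4 ≤ θ * N / (y * (y - θ)) :=
      div_le_div_of_nonneg_left (by positivity) (by positivity) h4
    linarith
  have hα2 : α = θ * (B * (2 * p)) := by
    rw [hθ]
    field_simp
  have k1 : 4 * B * ((2 * p) * (N / y)) + 4 * B * ((2 * p) * (θ * N / 4)) ≤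
      4 * B * ((2 * p) * (N / (y - θ))) := by
    rw [← mul_add, ← mul_add]
    exact mul_le_mul_of_nonneg_left (mul_le_mul_of_nonneg_left dr (by positivity)) (by positivity)
  have k2 : 4 * B * (p * (2 * (N / (y - θ)))) ≤
      4 * B * (p * (nsq v / (1 + a0 / (B * p)) + nsq w / (1 + a1 / (B * p)))) :=
    mul_le_mul_of_nonneg_left (mul_le_mul_of_nonneg_left ti2 hp.le) (by positivity)
  have k3 : α * N = 4 * B * ((2 * p) * (θ * N / 4)) := by
    rw [hα2]
    ring
  rw [k3]
  calc 4 * B * ((2 * p) * (θ * N / 4)) + 4 * B * ((2 * p) * (N / y))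
      ≤ 4 * B * ((2 * p) * (N / (y - θ))) := by linarith
    _ = 4 * B * (p * (2 * (N / (y - θ)))) := by ring
    _ ≤ 4 * B * (p * (nsq v / (1 + a0 / (B * p)) + nsq w / (1 + a1 / (B * p)))) := k2
    _ = _ := by ring

/-- sum over the cells of all scales inside the cell `m` of scale `K` -/
def tS (K : ℕ) (m : ℤ) (g : ℕ → ℤ → ℝ) : ℝ := ∑ j ∈ range (K + 1), ∑ i ∈ iv (K - j) m, g j i

theorem tS_zero (m : ℤ) (g : ℕ → ℤ → ℝ) : tS 0 m g = g 0 m := by
  unfold tS
  rw [zero_add, sum_range_one]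
  have e : iv (0 - 0) m = {m} := by
    ext x
    rw [mem_iv, mem_singleton]
    unfold ix
    simp
  rw [e, sum_singleton]

theorem tS_succ (K : ℕ) (m : ℤ) (g : ℕ → ℤ → ℝ) :
    tS (K + 1) m g = g (K + 1) m + (tS K (2 * m) g + tS K (2 * m + 1) g) := by
  unfold tS
  rw [sum_range_succ, Nat.sub_self]
  have e : iv 0 m = {m} := by
    ext x
    rw [mem_iv, mem_singleton]
    unfold ix
    simp
  rw [e, sum_singleton, add_comm, ← sum_add_distrib]
  congr 1
  refine sum_congr rfl fun j hj => ?_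
  have hj' : j ≤ K := by
    have := mem_range.1 hj
    omega
  have e1 : K + 1 - j = (K - j) + 1 := by omega
  rw [e1]
  exact sum_iv_half (K - j) m (g j)

theorem tS_nonneg (K : ℕ) (m : ℤ) {g : ℕ → ℤ → ℝ} (h : ∀ j i, 0 ≤ g j i) : 0 ≤ tS K m g :=
  sum_nonneg fun _ _ => sum_nonneg fun _ _ => h _ _

omit [Fintype ι] in
theorem avv_zero (m : ℤ) (f : ℤ → ι → ℝ) : avv 0 m f = f m := by
  unfold avv
  have e : iv 0 m = {m} := by
    ext x
    rw [mem_iv, mem_singleton]
    unfold ix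
    simp
  rw [e, sum_singleton]
  simp

/-- the Bellman form -/
theorem carleson_aux {al : ℕ → ℤ → ℝ} (h0 : ∀ j i, 0 ≤ al j i) {B : ℝ} (hB : 0 < B)
    (f : ℤ → ι → ℝ) : ∀ (K : ℕ) (M : ℤ),
    (∀ k ≤ K, ∀ m ∈ iv (K - k) M, tS k m al ≤ B * 2 ^ k) →
    tS K M (fun j i => al j i * nsq (avv j i f)) + 4 * B * (2 ^ K * (nsq (avv K M f) /
      (1 + tS K M al / (B * 2 ^ K)))) ≤ 4 * B * ∑ x ∈ iv K M, nsq (f x) := by
  intro K
  induction K with
  | zero =>
    intro M hp
    have e : iv 0 M = {M} := by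
      ext x
      rw [mem_iv, mem_singleton]
      unfold ix
      simp
    have hp0 := hp 0 le_rfl M (by rw [Nat.sub_self, e]; exact mem_singleton_self M)
    rw [tS_zero] at hp0
    rw [tS_zero, tS_zero, avv_zero, e, sum_singleton]
    simp only [pow_zero, mul_one, one_mul] at hp0 ⊢
    set N := nsq (f M)
    have hN : 0 ≤ N := nsq_nonneg _
    set a := al 0 M / B with ha
    have ha0 : 0 ≤ a := div_nonneg (h0 0 M) hB.le
    have ha1 : a ≤ 1 := by rw [ha, div_le_one hB]; exact hp0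
    have e2 : al 0 M = a * B := by rw [ha]; field_simp
    have e3 : N - N / (1 + a) = a * N / (1 + a) := by
      have : (1 + a) ≠ 0 := by positivity
      field_simp
      ring
    have h5 : a * N / 2 ≤ a * N / (1 + a) :=
      div_le_div_of_nonneg_left (by positivity) (by positivity) (by linarith)
    have h6 : N / (1 + a) + a * N / 2 ≤ N := by linarith
    have h7 := mul_le_mul_of_nonneg_left h6 (by positivity : 0 ≤ 4 * B)
    have h8 : 0 ≤ a * B * N := by positivity
    rw [e2]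
    nlinarith
  | succ K ih =>
    intro M hp
    have mem0 : ∀ k ≤ K, ∀ m ∈ iv (K - k) (2 * M), m ∈ iv (K + 1 - k) M := by
      intro k hk m hm
      have e1 : K + 1 - k = (K - k) + 1 := by omega
      rw [mem_iv] at hm ⊢
      rw [e1]
      unfold ix at hm ⊢
      rw [pow_succ, ← Int.ediv_ediv_of_nonneg (by positivity), hm]
      omega
    have mem1 : ∀ k ≤ K, ∀ m ∈ iv (K - k) (2 * M + 1), m ∈ iv (K + 1 - k) M := by
      intro k hk m hm
      have e1 : K + 1 - k = (K - k) + 1 := by omega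
      rw [mem_iv] at hm ⊢
      rw [e1]
      unfold ix at hm ⊢
      rw [pow_succ, ← Int.ediv_ediv_of_nonneg (by positivity), hm]
      omega
    have i0 := ih (2 * M) fun k hk m hm => hp k (by omega) m (mem0 k hk m hm)
    have i1 := ih (2 * M + 1) fun k hk m hm => hp k (by omega) m (mem1 k hk m hm)
    have hK := hp (K + 1) le_rfl M (by
      rw [Nat.sub_self, mem_iv]
      unfold ix
      simp)
    rw [tS_succ] at hK ⊢
    rw [tS_succ, sum_iv_half, mul_add]
    have st := bell_step hB (p := 2 ^ K) (by positivity) (tS_nonneg K (2 * M) h0)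
      (tS_nonneg K (2 * M + 1) h0) (h0 (K + 1) M) (by
        rw [pow_succ'] at hK
        linarith) (avv K (2 * M) f) (avv K (2 * M + 1) f)
    have e1 : (1 / 2 : ℝ) • (avv K (2 * M) f + avv K (2 * M + 1) f) = avv (K + 1) M f := by
      rw [avv_half, smul_add]
    rw [e1] at st
    have e2 : tS K (2 * M) al + tS K (2 * M + 1) al + al (K + 1) M =
        al (K + 1) M + (tS K (2 * M) al + tS K (2 * M + 1) al) := by ring
    rw [e2] at st
    rw [pow_succ' (2 : ℝ) K]
    linarith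

/-- **Dyadic Carleson embedding for vectors.** -/
theorem carleson {al : ℕ → ℤ → ℝ} (h0 : ∀ j i, 0 ≤ al j i) {B : ℝ} (hB : 0 < B)
    (f : ℤ → ι → ℝ) (K : ℕ) (M : ℤ)
    (hp : ∀ k ≤ K, ∀ m ∈ iv (K - k) M, tS k m al ≤ B * 2 ^ k) :
    tS K M (fun j i => al j i * nsq (avv j i f)) ≤ 4 * B * ∑ x ∈ iv K M, nsq (f x) := by
  have h := carleson_aux h0 hB f K M hp
  have h2 : 0 ≤ 4 * B * (2 ^ K * (nsq (avv K M f) / (1 + tS K M al / (B * 2 ^ K)))) := by
    have := tS_nonneg K M h0
    have := nsq_nonneg (avv K M f)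
    positivity
  linarith

end

end Vale.Agent.P141.H543
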