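import Vale.Agent.P141.H543.WtTF

/-!
# P141, line (A), F13

The numbers of the flow part in the letters of the stack are in `Vale.Agent.P141.H235.Num1b`
(port to version 1.2 of the skeleton); this file is kept empty so that the tree builds.
-/
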