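import Vale.Agent.P141.H543.NumTF

/-!
# P141, line (A), F13: the change of the weight of the flow part at a child, pointwise
-/

namespace Vale.Agent.P141.H543

open Finset Matrix Vale.Agent.P141.PL
open Vale.Agent.P141.H258 (wt wt_symm wt_psd)
open Vale.Agent.P141.H505.Skel

noncomputable section

variable {κ : Type} [Fintype κ] [DecidableEq κ]

/-- the cell of scale `k` is one of the two halves -/
theorem ix_half (k : ℕ) (z : ℤ) : ix k z = 2 * ix (k + 1) z ∨ ix k z = 2 * ix (k + 1) z + 1 := by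
  have h : ix (k + 1) z = ix k z / 2 := by
    unfold ix
    rw [pow_succ, Int.ediv_ediv_of_nonneg (by positivity)]
  rw [h]
  omega

/-- the form of the variation of the weight at `z`, parent `k + 1` -/
def vP (Th M : ℤ → ℕ → ℤ → Matrix κ κ ℝ) (x : ℤ) (k : ℕ) (z : ℤ) (c : κ → ℝ) : ℝ :=
  (M x (k + 1) (ix (k + 1) z) *ᵥ c) ⬝ᵥ ((Th x (k + 1) (ix (k + 1) z))⁻¹ *ᵥ
    (M x (k + 1) (ix (k + 1) z) *ᵥ c))

/-- the form of the change of the weight at `z`, child `k` -/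
def vC (Th : ℤ → ℕ → ℤ → Matrix κ κ ℝ) (x : ℤ) (k : ℕ) (z : ℤ) (c : κ → ℝ) : ℝ :=
  ((Th x k (ix k z) - Th x (k + 1) (ix (k + 1) z)) *ᵥ c) ⬝ᵥ ((Th x k (ix k z))⁻¹ *ᵥ
    ((Th x k (ix k z) - Th x (k + 1) (ix (k + 1) z)) *ᵥ c))

/-- the two numbers of a move -/
def qD (D : ℤ → ℕ → ℤ → Matrix κ κ ℝ) (x : ℤ) (k : ℕ) (z : ℤ) (c : κ → ℝ) : ℝ :=
  (D x (k + 1) (ix (k + 1) z) *ᵥ c) ⬝ᵥ (D x (k + 1) (ix (k + 1) z) *ᵥ c)

/-- the second number -/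
def qDR (R D : ℤ → ℕ → ℤ → Matrix κ κ ℝ) (x : ℤ) (k : ℕ) (z : ℤ) (c : κ → ℝ) : ℝ :=
  (D x (k + 1) (ix (k + 1) z) *ᵥ (R x (k + 1) (ix (k + 1) z) *ᵥ c)) ⬝ᵥ
    (D x (k + 1) (ix (k + 1) z) *ᵥ (R x (k + 1) (ix (k + 1) z) *ᵥ c))

theorem vP_le {β : ℝ} (hβ : 0 < β) {N : ℕ} {R D : ℤ → ℕ → ℤ → Matrix κ κ ℝ} (h : Mv N R D)
    (x : ℤ) (k : ℕ) (z : ℤ) (c : κ → ℝ) :
    vP (ThF β R) (MF R D) x k z c ≤ 2 * qD D x k z c + 2 * β⁻¹ * qDR R D x k z c :=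
  parent_TF hβ h x (k + 1) (ix (k + 1) z) c

theorem vC_le {β : ℝ} (hβ : 0 < β) {N : ℕ} {R D : ℤ → ℕ → ℤ → Matrix κ κ ℝ} (h : Mv N R D)
    (x : ℤ) {k : ℕ} (hk : k < N) (z : ℤ) (c : κ → ℝ) :
    vC (ThF β R) x k z c ≤ 2 * qD D x k z c + 2 * β⁻¹ * qDR R D x k z c := by
  have w := wgt_TF hβ h
  rcases ix_half k z with e | e
  · have e1 : ThF β R x k (2 * ix (k + 1) z) - ThF β R x (k + 1) (ix (k + 1) z) =
        MF R D x (k + 1) (ix (k + 1) z) + NF D x (k + 1) (ix (k + 1) z) := by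
      rw [w.left x k _ hk]
      abel
    unfold vC
    rw [e, e1]
    exact left_TF hβ h x hk (ix (k + 1) z) c
  · have e1 : ThF β R x k (2 * ix (k + 1) z + 1) - ThF β R x (k + 1) (ix (k + 1) z) =
        -(MF R D x (k + 1) (ix (k + 1) z) - NF D x (k + 1) (ix (k + 1) z)) := by
      rw [w.right x k _ hk]
      abel
    unfold vC
    rw [e, e1, neg_mulVec, mulVec_neg, neg_dotProduct_neg]
    exact right_TF hβ h x hk (ix (k + 1) z) c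

end

end Vale.Agent.P141.H543
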